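import Vale.Agent.P014Z.In.Soc
import Vale.Agent.P014Z.Rp.Dpt0
import Vale.Agent.P004K.Bas

/-! # P014Z, trivial zeros on the Kummer side: abelian numbers, additive maps, descent -/

set_option autoImplicit false
set_option linter.all false

open Finset Polynomial
open scoped Classical

noncomputable section

namespace Vale.Agent.P014Z.Tk

open Vale.Agent.P022 (Qb GQ)
open Vale.Agent.P022K.G2
open P027M.M (io)

variable {V U Γ : Subgroup GQ} {x y : Qb} {p : ℕ}

/-- `V` acts on `x` through an abelian group -/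
def Am (V : Subgroup GQ) (x : Qb) : Prop := x ≠ 0 ∧ ∀ g ∈ V, ∀ h ∈ V, g (h x) = h (g x)

theorem Am.one : Am V 1 := ⟨one_ne_zero, fun _ _ _ _ => by simp⟩

theorem Am.mul (a : Am V x) (b : Am V y) : Am V (x * y) :=
  ⟨mul_ne_zero a.1 b.1, fun g m h n => by simp only [map_mul, a.2 g m h n, b.2 g m h n]⟩

theorem Am.inv (a : Am V x) : Am V x⁻¹ :=
  ⟨inv_ne_zero a.1, fun g m h n => by simp only [map_inv₀, a.2 g m h n]⟩

theorem Am.div (a : Am V x) (b : Am V y) : Am V (x / y) := div_eq_mul_inv x y ▸ a.mul b.inv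

theorem Am.prod {ι : Type} {s : Finset ι} {F : ι → Qb} (h : ∀ i ∈ s, Am V (F i)) :
    Am V (∏ i ∈ s, F i) := prod_induction F _ (fun _ _ => Am.mul) Am.one h

theorem Am.pow (a : Am V x) (n : ℕ) : Am V (x ^ n) := by
  simpa using Am.prod (s := range n) fun _ _ => a

theorem Am.zpow (a : Am V x) (n : ℤ) : Am V (x ^ n) := by
  obtain ⟨n, rfl | rfl⟩ := n.eq_nat_or_neg
  · exact zpow_natCast x n ▸ a.pow n
  · rw [zpow_neg, zpow_natCast]
    exact (a.pow n).inv

theorem Am.mono (a : Am Γ x) (h : V ≤ Γ) : Am V x := ⟨a.1, fun g m k n => a.2 g (h m) k (h n)⟩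

theorem Am.act (a : Am Γ x) {k : GQ} (m : k ∈ Γ) : Am Γ (k x) :=
  ⟨(map_ne_zero k).2 a.1, fun g b h c => by
    have e := a.2 _ (mul_mem b c) k m
    have e' := a.2 _ (mul_mem c b) k m
    simp only [AlgEquiv.mul_apply] at e e'
    rw [e, e', a.2 g b h c]⟩

theorem ab_root {n : ℕ} (n0 : 0 < n) (h : x ^ n = 1) : Am V x := by
  have f : IsOfFinOrder x := isOfFinOrder_iff_pow_eq_one.2 ⟨n, n0, h⟩
  have : NeZero (orderOf x) := ⟨f.orderOf_pos.ne'⟩
  have k : ∀ g : GQ, ∃ a : ℕ, g x = x ^ a := fun g =>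
    let ⟨a, _, e⟩ := (IsPrimitiveRoot.orderOf x).eq_pow_of_pow_eq_one (ξ := g x)
      (by rw [← map_pow, pow_orderOf_eq_one, map_one])
    ⟨a, e.symm⟩
  refine ⟨fun e => by simp [e, n0.ne'] at h, fun g _ g' _ => ?_⟩
  obtain ⟨a, e⟩ := k g
  obtain ⟨b, e'⟩ := k g'
  rw [e, e', map_pow, map_pow, e, e', pow_right_comm]

/-- additive maps -/
def Lg (V : Subgroup GQ) {A : Type} [AddCommGroup A] (l : Qb → A) : Prop :=
  ∀ x y, Am V x → Am V y → l (x * y) = l x + l y

section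

variable {A : Type} [AddCommGroup A] {l : Qb → A}

theorem Lg.one (h : Lg V l) : l 1 = 0 := by simpa using h 1 1 Am.one Am.one

theorem Lg.prod (h : Lg V l) {ι : Type} {s : Finset ι} {F : ι → Qb} (k : ∀ i ∈ s, Am V (F i)) :
    l (∏ i ∈ s, F i) = ∑ i ∈ s, l (F i) := by
  induction s using Finset.induction_on with
  | empty => simpa using h.one
  | insert i s n e =>
    have k' := fun j m => k j (mem_insert_of_mem m)
    rw [prod_insert n, sum_insert n, h _ _ (k i (mem_insert_self _ _)) (Am.prod k'), e k']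

theorem Lg.pow (h : Lg V l) (a : Am V x) (n : ℕ) : l (x ^ n) = n • l x := by
  simpa using h.prod (s := range n) fun _ _ => a

theorem Lg.div (h : Lg V l) (a : Am V x) (b : Am V y) : l (x / y) = l x - l y := by
  rw [eq_sub_iff_add_eq, ← h _ _ (a.div b) b, div_mul_cancel₀ _ b.1]

end

variable [hp : Fact p.Prime] {l : Qb → ZMod p}

theorem Lg.root (h : Lg V l) {n : ℕ} (n0 : 0 < n) (e : x ^ n = 1) : l x = 0 := by
  obtain ⟨y, rfl⟩ := IsAlgClosed.exists_pow_nat_eq x hp.out.pos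
  rw [h.pow (ab_root (Nat.mul_pos hp.out.pos n0) (by rwa [pow_mul])), nsmul_eq_mul,
    ZMod.natCast_self, zero_mul]

/-- the group -/
def AG (V : Subgroup GQ) : Subgroup Qbˣ where
  carrier := {u | Am V u}
  one_mem' := Am.one
  mul_mem' := Am.mul
  inv_mem' := fun {u} a => show Am V _ from Units.val_inv_eq_inv_val u ▸ Am.inv a

theorem du {N : Type} [AddCommGroup N] [Module (ZMod p) N] (v : N)
    (h : ∀ φ : N →ₗ[ZMod p] ZMod p, φ v = 0) : v = 0 :=
  (Module.forall_dual_apply_eq_zero_iff (ZMod p) v).1 h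

/-- **the additive maps detect the powers** -/
theorem sep (a : Am V x) (h : ∀ l : Qb → ZMod p, Lg V l → l x = 0) : ∃ y, Am V y ∧ x = y ^ p := by
  let M := Additive (AG V)
  let P : AddSubgroup M := (nsmulAddMonoidHom p : M →+ M).range
  let _ : Module (ZMod p) (M ⧸ P) := QuotientAddGroup.zmodModule fun z => ⟨z, rfl⟩
  let ι : ∀ z, Am V z → M := fun z b => Additive.ofMul ⟨Units.mk0 z b.1, b⟩
  have z : (QuotientAddGroup.mk (ι x a) : M ⧸ P) = 0 :=
    du (p := p) _ fun φ => by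
      have := h (fun z => if b : Am V z then φ (QuotientAddGroup.mk (ι z b)) else 0)
        fun u v b c => by
          beta_reduce
          rw [dif_pos b, dif_pos c, dif_pos (b.mul c), ← map_add, ← QuotientAddGroup.mk_add]
          exact congrArg (fun w : M => φ (QuotientAddGroup.mk w))
            (Additive.toMul.injective (Subtype.ext (Units.ext rfl)))
      beta_reduce at this
      rwa [dif_pos a] at this
  obtain ⟨w, e⟩ := (QuotientAddGroup.eq_zero_iff _).1 z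
  refine ⟨(Additive.toMul w).1, (Additive.toMul w).2, ?_⟩
  have := congrArg (fun w : M => ((Additive.toMul w).1 : Qb)) e
  rw [nsmulAddMonoidHom_apply, toMul_nsmul, Subgroup.coe_pow, Units.val_pow_eq_pow_val] at this
  exact this.symm

/-- **descent** -/
theorem dsc (le : V ≤ U) (nm : ∀ g ∈ U, ∀ v ∈ V, g⁻¹ * v * g ∈ V) (hz : ∃ u ∈ V, oz p u ≠ 1)
    (fx : ∀ g ∈ U, g (y ^ p) = y ^ p) (a : Am V y) :
    ∃ w : Qb, (∀ g ∈ U, g w = w) ∧ y ^ p = w ^ p := by
  have : NeZero p := ⟨hp.out.ne_zero⟩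
  have r : ∀ {w : Qb}, w ≠ 0 → ∀ g : GQ, g (w ^ p) = w ^ p →
      ∃ k : ZMod p, g w = zt p ^ k.val * w := fun {w} w0 g e => by
    obtain ⟨i, l, e⟩ := (zt_prim p).eq_pow_of_pow_eq_one (ξ := g w / w)
      (by rw [div_pow, ← map_pow, e, div_self (pow_ne_zero _ w0)])
    exact ⟨i, by rw [ZMod.val_cast_of_lt l, e, div_mul_cancel₀ _ w0]⟩
  choose! z k using fun g (m : g ∈ V) => r a.1 g (fx g (le m))
  obtain ⟨u, m, n⟩ := id hz
  have c : ∀ g ∈ V, z g = oz p g * (z u / (oz p u - 1)) - z u / (oz p u - 1) := fun g b => by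
    have e := a.2 u m g b
    rw [k g b, k u m, map_mul, map_mul, oz_pw, oz_pw, k g b, k u m, ← mul_assoc, ← mul_assoc,
      ← pw_add, ← pw_add, mul_left_inj' a.1] at e
    have e := ZMod.val_injective p ((zt_prim p).pow_inj (ZMod.val_lt _) (ZMod.val_lt _) e)
    have n := sub_ne_zero.2 n
    field_simp
    linear_combination e
  obtain ⟨w, e, f⟩ := In.So.rat k c
  have w0 : w ≠ 0 := fun o => pow_ne_zero p a.1 (by rw [← e, o, zero_pow hp.out.ne_zero])
  refine ⟨w, fun g b => ?_, e.symm⟩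
  obtain ⟨i, t⟩ := r w0 g (by rw [e, fx g b])
  have := In.So.uq (k := i) (k' := 0) (y' := g w) hz w0 f (fun v o => by
    have := congrArg g (f _ (nm g b v o))
    simpa [AlgEquiv.mul_apply] using this) (by rw [← t, ZMod.val_zero, pow_zero, one_mul])
  rw [t, this, ZMod.val_zero, pow_zero, one_mul]

/-! ### roots of complex numbers -/

/-- powers of abelian numbers -/
def Sd (V : Subgroup GQ) (d : ℕ) : Submonoid ℂ where
  carrier := {z | ∃ y, Am V y ∧ z = io y ^ d}
  one_mem' := ⟨1, Am.one, by simp⟩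
  mul_mem' := fun ⟨x, a, e⟩ ⟨y, b, f⟩ => ⟨x * y, a.mul b, by rw [e, f, map_mul, mul_pow]⟩

/-- the value at a root -/
def ld (V : Subgroup GQ) (d : ℕ) (l : Qb → ZMod p) (z : ℂ) : ZMod p :=
  if h : ∃ y, Am V y ∧ z = io y ^ d then l h.choose else 0

theorem ld_eq (h : Lg V l) {d : ℕ} (d0 : 0 < d) (a : Am V y) : ld V d l (io y ^ d) = l y := by
  have e : ∃ w, Am V w ∧ io y ^ d = io w ^ d := ⟨y, a, rfl⟩
  obtain ⟨b, c⟩ := e.choose_spec
  rw [ld, dif_pos e, eq_comm, ← sub_eq_zero, ← h.div a b]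
  refine h.root d0 ?_
  rw [div_pow, P004K.io_inj (a₁ := y ^ d) (a₂ := e.choose ^ d) (by rwa [map_pow, map_pow]),
    div_self (pow_ne_zero _ b.1)]

theorem ld_add (h : Lg V l) {d : ℕ} (d0 : 0 < d) : ∀ z ∈ Sd V d, ∀ w ∈ Sd V d,
    ld V d l (z * w) = ld V d l z + ld V d l w := by
  rintro _ ⟨x, a, rfl⟩ _ ⟨y, b, rfl⟩
  rw [← mul_pow, ← map_mul, ld_eq h d0 a, ld_eq h d0 b, ld_eq h d0 (a.mul b), h _ _ a b]

/-! ### differences -/

theorem dif {n t : ℕ} (t0 : 0 < t) (le : t ≤ p ^ n) (Λ : (ZMod p)[X] →ₗ[ZMod p] ZMod p)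
    (h : ∀ i < t, ∑ m ∈ range (p ^ n), (m.choose i : ZMod p) * Λ (X ^ m) = 0) :
    Λ ((X - 1) ^ (p ^ n - t)) = 0 := by
  have k : ∀ i < t, Λ ((-X) ^ i * (X - 1) ^ (p ^ n - 1 - i)) = 0 := fun i l => by
    rw [← Rp.Dt.bin n i (l.trans_le le), map_sum, ← h i l]
    exact sum_congr rfl fun m _ => by rw [← nsmul_eq_mul, map_nsmul, nsmul_eq_mul]
  obtain ⟨s, rfl⟩ : ∃ s, t = s + 1 := ⟨t - 1, by omega⟩
  have e : ((X - 1) ^ (p ^ n - (s + 1)) : (ZMod p)[X]) = (-1 : ZMod p) ^ s •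
      ∑ i ∈ range (s + 1), s.choose i • ((-X) ^ i * (X - 1) ^ (p ^ n - 1 - i)) := by
    have : ∑ i ∈ range (s + 1), s.choose i • ((-X : (ZMod p)[X]) ^ i * (X - 1) ^ (p ^ n - 1 - i)) =
        (-X + (X - 1)) ^ s * (X - 1) ^ (p ^ n - (s + 1)) := by
      rw [add_pow, sum_mul]
      refine sum_congr rfl fun i m => ?_
      have := mem_range.1 m
      rw [show p ^ n - 1 - i = s - i + (p ^ n - (s + 1)) by omega, pow_add, nsmul_eq_mul]
      ring
    rw [this, smul_eq_C_mul, map_pow, map_neg, map_one, ← mul_assoc, ← mul_pow]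
    simp
  rw [e, map_smul, map_sum, sum_eq_zero fun i m => by rw [map_nsmul, k i (mem_range.1 m), smul_zero],
    smul_zero]

/-- **the trivial zeros kill the class** -/
theorem kill {n t : ℕ} (t0 : 0 < t) (le : t ≤ p ^ n) (lv : V ≤ Γ) {γ : GQ} (m : γ ∈ Γ) (a : Am Γ x)
    (h : ∀ l : Qb → ZMod p, Lg V l →
      ∀ i < t, ∑ k ∈ range (p ^ n), (k.choose i : ZMod p) * l ((γ ^ k) x) = 0) :
    ∃ y, Am V y ∧ (fun z => γ z / z)^[p ^ n - t] x = y ^ p := by
  have b : ∀ k, Am Γ ((fun z => γ z / z)^[k] x) := fun k => by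
    induction k with
    | zero => exact a
    | succ k i => exact Function.iterate_succ_apply' _ k x ▸ (i.act m).div i
  refine sep ((b _).mono lv) fun l g => ?_
  let Λ := (basisMonomials (ZMod p)).constr (ZMod p) fun k => l ((γ ^ k) x)
  have e : ∀ k, Λ (X ^ k) = l ((γ ^ k) x) := fun k => by
    rw [X_pow_eq_monomial]
    exact (congrArg Λ (congrFun (coe_basisMonomials _) k).symm).trans
      (Module.Basis.constr_basis _ _ _ _)
  have c : ∀ k i, l ((γ ^ i) ((fun z => γ z / z)^[k] x)) = Λ (X ^ i * (X - 1) ^ k) := fun k => by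
    induction k with
    | zero => exact fun i => by rw [pow_zero, mul_one, e]; rfl
    | succ k s =>
      intro i
      rw [Function.iterate_succ_apply', map_div₀, ← AlgEquiv.mul_apply, ← pow_succ,
        g.div (((b k).act (pow_mem m _)).mono lv) (((b k).act (pow_mem m _)).mono lv), s, s,
        ← map_sub]
      congr 1
      ring
  have := c (p ^ n - t) 0
  rw [pow_zero, pow_zero, one_mul, dif t0 le Λ fun i o => by simp only [e, h l g i o]] at this
  exact this

end Vale.Agent.P014Z.Tk
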