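import Vale.Agent.P014Z.Su.Ab
import Vale.Agent.P014Z.Su.Int
import Vale.Agent.P014Z.Tz.St
import Vale.Agent.P014Z.Tk.Dsc
import Vale.Agent.P004K.Jf
import Vale.Agent.P004K.Rc.Cyc
import Vale.Agent.P004R.Qf

/-! # P014Z, block TK: the values at points of conductor one are abelian over the Hilbert class
field -/

set_option autoImplicit false
set_option linter.all false

open UpperHalfPlane NumberField
open scoped Classical

noncomputable section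

namespace Vale.Agent.P014Z.Tk

open Vale.Agent.P022 (Qb GQ GK)
open Vale.Agent.P022.H218.L3 (jf)
open P027H P027M.M P004K
open Su (g12)
open Tz (yr pg)

variable {K : Type} [Field K] [NumberField K] {j : K →+* Qb} {M f d : ℕ} {I : Ideal (𝓞 K)}
  {g : GQ} {σ : ℂ ≃+* ℂ} {τ₁ τ₀ τ' : ℍ}

theorem cm_pt (iq : Iq K) (m : g ∈ GK j) (e : Ex σ g) (p : Hp (JJ j) M I 1 τ₁) (q : Cj0 σ M τ₁ τ₀) :
    ∃ (ω : 𝓞 K) (A B C D : ℤ), C ≠ 0 ∧ JJ j ω * τ₀ = A * τ₀ + B ∧ JJ j ω = C * τ₀ + D := by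
  obtain ⟨ω, -, i⟩ := Rc.iq0 j iq
  obtain ⟨μ, h, -⟩ := p
  obtain ⟨ψ, t, -⟩ := q
  have k := (t.cm (c := JJ j ω) fun z hz => (h.2 _).2 (by
    obtain ⟨k, a, e⟩ := (h.2 z).1 hz
    exact ⟨0, ω * (k + a), by
      rw [mul_left_comm, e]
      simp⟩)).1
  rw [e.JJ m] at k
  obtain ⟨A, B, e1⟩ := mem_lat.1 (k _ (tau_lat τ₀))
  obtain ⟨C, D, e2⟩ := mem_lat.1 (k _ (one_lat τ₀))
  rw [mul_one] at e2
  refine ⟨ω, A, B, C, D, ?_, e1.symm, e2.symm⟩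
  rintro rfl
  simp [← e2] at i

/-- **one value** -/
theorem mem (r1 : P004K.RC1) (hg1 : HG1) (iq : Iq K) (M0 : 0 < M) (cn : Cn M I) (fM : f ∣ M)
    (m : g ∈ GK j) (e : Ex σ g) (p : Hp (JJ j) M I 1 τ₁) (q : Cj0 σ M τ₁ τ₀)
    (t : (τ' : ℂ) = f * τ₀) (d0 : 0 < d) (X Y : ℤ) (n : ¬ (d : ℤ) ∣ X) :
    ∃ w, Am (Hc j 1) w ∧ io w = g12 (X / d) (Y / d) τ' := by
  obtain ⟨ω, A, B, C, D, c0, e1, e2⟩ := cm_pt iq m e p q
  have f0 := Nat.pos_of_dvd_of_pos fM M0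
  have z : (C : ℂ) * τ' ^ 2 + (f * (D - A) : ℤ) * τ' + (-(f ^ 2 * B) : ℤ) = 0 := by
    rw [t]
    push_cast
    linear_combination (f : ℂ) ^ 2 * (e1 - τ₀ * e2)
  have i := int_row τ' (C, f * (D - A), -(f ^ 2 * B)) (fun k => c0 (congrArg Prod.fst k)) z
  rw [jL_lat] at i
  obtain ⟨w, hw⟩ := ex_io ((Su.int d0.ne' (y := Y) i fun k => n k.1).1.tower_top
    (A := ℚ)).isAlgebraic
  have w0 : w ≠ 0 := fun k => Su.g12_ne τ'.2 (Su.nl τ'.2 d0.ne' (y := Y) fun k => n k.1)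
    (by rw [← hw, k, map_zero])
  have fx : ∀ h ∈ Hc j 1, ∃ s, Ex s h ∧ s τ' = τ' ∧ s (jf τ') = jf τ' := fun h hh => by
    obtain ⟨s, es⟩ := ex_ex h
    have c := ((hg1 K j iq M 1 I M0 one_pos (by simp) cn).2.2.2.1 τ₁ _ _
      (mul_mem (mul_mem (inv_mem m) hh.1) m) p ((e.inv.mul es).mul e)).1
      ((r1 K j iq 1 one_pos).2.2.1.conj_mem' h hh g)
    have := ((q.symm M0).trans c).trans q
    rw [show σ * (σ⁻¹ * s * σ * σ⁻¹) = s by group] at this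
    refine ⟨s, es, ?_, (P004R.Qf.j_cj tr0 M0 fM this t t).symm⟩
    have a := es.JJ hh.1 ω
    rw [e2, map_add, map_mul, map_intCast, map_intCast, add_left_inj,
      mul_right_inj' (Int.cast_ne_zero.2 c0)] at a
    rw [t, map_mul, map_natCast, a]
  refine ⟨w, ⟨w0, fun h hh h' hh' => P004K.io_inj ?_⟩, hw⟩
  obtain ⟨s, es, a, b⟩ := fx h hh
  obtain ⟨s', es', a', b'⟩ := fx h' hh'
  rw [← es, ← es', ← es', ← es, hw]
  exact Su.g_ab d0 c0 z a a' b b' X Y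

/-- **the products** -/
theorem yr_mem [NeZero f] {c : ℕ} (r1 : P004K.RC1) (hg1 : HG1) (iq : Iq K) (M0 : 0 < M)
    (cn : Cn M I) (fM : f ∣ M) (m : g ∈ GK j) (e : Ex σ g) (p : Hp (JJ j) M I 1 τ₁)
    (q : Cj0 σ M τ₁ τ₀) (t : (τ' : ℂ) = f * τ₀) (hf : 1 < f) (c0 : 0 < c) (cop : c.Coprime f)
    (ν : (ZMod f)ˣ → ℤ) (r s : ℤ) :
    yr (pg (f * c)) f c ν r s τ' ∈ Sd (Hc j 1) (f * c) := by
  have := Fact.mk hf
  choose w a b using fun x y : (ZMod f)ˣ => mem r1 hg1 iq M0 cn fM m e p q t (d := f * c)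
    (by positivity) (c * (x : ZMod f).val + f * r) (c * (y : ZMod f).val + f * s) fun k => by
      have := (ZMod.intCast_zmod_eq_zero_iff_dvd _ f).2 ((Dvd.intro (c : ℤ) (by simp)).trans k)
      push_cast at this
      rw [ZMod.natCast_self, zero_mul, add_zero, ZMod.natCast_zmod_val] at this
      exact (((ZMod.isUnit_iff_coprime c f).2 cop).mul x.isUnit).ne_zero this
  refine ⟨∏ x, ∏ y, w x y ^ ν (x * y),
    Am.prod fun x _ => Am.prod fun y _ => (a x y).zpow _, ?_⟩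
  simp only [yr, pg, ← b, map_prod, ← Finset.prod_pow, map_zpow₀]
  refine Finset.prod_congr rfl fun x _ => Finset.prod_congr rfl fun y _ => ?_
  rw [← zpow_natCast, ← zpow_natCast, ← zpow_mul, ← zpow_mul, mul_comm]

end Vale.Agent.P014Z.Tk
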