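import Vale.Agent.P014Z.Tk.Dsc
import Vale.Agent.P014Z.Tk.Mem
import Vale.Agent.P014Z.St2
import Vale.Agent.P014Z.Inr
import Vale.Agent.P014Z.Lk.Gal
import Vale.Agent.P014Z.Tz.Cr0
import Vale.Agent.P014Z.Tz.Lnk
import Vale.Agent.P014Z.Tz.Sys

/-! # P014Z, block TK: the trivial zeros on the Kummer side -/

set_option autoImplicit false
set_option linter.all false

noncomputable section

namespace Vale.Agent.P014Z.Tk

open NumberField UpperHalfPlane Finset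
open scoped Classical
open Vale.Agent.P022 (Qb GQ GK)
open Vale.Agent.P022K.G2 (oz)
open Vale.Agent.P014U P004K
open P027M.M (io)
open P014Y.F (Crv Fld)
open Gl Lk.Ga

variable [Pp]

/-- the primes of the tower -/
def FR : Prop := ∀ (e : Crv) (D : Da e) (b : Fld e) n (L : Lt D b n),
  (∀ q m : ℕ, q.Prime → L.c = q * m → ∃ t ∈ Hc b.j m, L.χ t = 1) ∧
  ∀ q : ℕ, q.Prime → q ∣ L.c → D.ψ q = 1 ∧ ∃ π π' : 𝓞 b.K, π * π' = q ∧ IsCoprime π π' ∧
    ¬ IsUnit π ∧ ¬ IsUnit π'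

variable {e : Crv} {D : Da e} {b : Fld e} {n : ℕ} {L : Lt D b n} {U : ZMod D.f → GQ → Qb}

theorem am_u (h : Uv L U) (t : ZMod D.f) {g : GQ} (m : g ∈ b.Γ) : Am b.Γ (U t g) :=
  ⟨h.ne t m, fun k a k' a' => by
    have s := fun {g γ : GQ} => h.uf.sh (g := g) (γ := γ) x_rc1 b.iq
      (Nat.pos_of_ne_zero L.lz.ly.c0)
    rw [h.uf.act t g m k' a', s (mul_mem a' m) a, s m a, h.uf.act _ _ (mul_mem m a) k' a',
      mul_left_comm, mul_assoc]⟩

theorem fx_x (h : Uv L U) (a : ℕ) : ∀ g ∈ L.U, g (L.X a) = L.X a := fun g m => by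
  obtain ⟨m1, m2, m3⟩ := (L.ug g).1 m
  have k := h.cmp (fun x => (x⁻¹ ^ a).val) m1
  have k' := h.cmp (fun x => (x⁻¹ ^ a).val) (one_mem _)
  rw [m2, m3] at k
  rw [map_one, L.lz.ker 1 (one_mem _)] at k'
  exact k.trans k'.symm

theorem ex_oz (L : Lt D b n) : ∃ u ∈ L.U ⊓ Hc b.j 1, oz pp u ≠ 1 := by
  have o := e.ov pp e.pm
  obtain ⟨u, i, k⟩ := Inr.oz_in o (u := -1) (neg_ne_zero.2 one_ne_zero)
  have m := b.le pp e.pm (P022D.W.inP_le_dec i)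
  refine ⟨u, ⟨(L.ug u).2 ⟨m, by rw [D.ec.ine _ u o i, k, D.ec.ev.neg_one_pow], ?_⟩,
    P004R.Wr.inert_hc x_rc2 b.iq o pp_prime.not_dvd_one m i⟩,
    fun h => two_ne (by linear_combination k - h)⟩
  have : NeZero (pp ^ (n + 1)) := ⟨pow_ne_zero _ pp_ne⟩
  rw [← ZMod.natCast_zmod_val (L.χ u), ZMod.natCast_eq_zero_iff]
  exact L.lz.ly.unr pp _ o (fun d => (L.lz.ly.out pp pp_prime d).1 (List.mem_toFinset.2 e.pm)) u m i

/-- **the trivial zeros** -/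
theorem tzk (cr : Tz.CR0) (fr : FR) : TZK := by
  intro e D b n L _ a _ lt
  obtain ⟨U, h⟩ := ex_uv L
  obtain ⟨fa, fb⟩ := fr e D b n L
  have s := sup_f D
  have c0 := Nat.pos_of_ne_zero L.lz.ly.c0
  have f0 := NeZero.pos D.f
  have co := s.cop L.lz.ly
  have : NeZero (pp ^ (n + 1)) := ⟨pow_ne_zero _ pp_ne⟩
  let W : GQ → Qb := fun g => ∏ t : (ZMod D.f)ˣ, U t g ^ ((D.ψ t)⁻¹ ^ a).val
  have aW : ∀ g ∈ L.R, Am b.Γ (W g) := fun g m =>
    Am.prod fun t _ => (am_u h t (L.tv.mem g m)).pow _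
  have aX : Am b.Γ (L.X a) := by
    have := h.xa a 0
    rw [pow_zero, AlgEquiv.one_apply] at this
    exact this ▸ Am.prod fun g m => aW g (mem_filter.1 m).1
  have le : L.U ≤ b.Γ := fun g m => ((L.ug g).1 m).1
  have lv : L.U ⊓ Hc b.j 1 ≤ b.Γ := inf_le_left.trans le
  let u := ZMod.unitOfCoprime L.c₀ L.sm.cop
  let w : (ZMod D.f)ˣ → ℤ := fun t => ((D.ψ t)⁻¹ ^ a).val
  let ν : (ZMod D.f)ˣ → ℤ := fun t => L.m * (L.c₀ * w t - w (u⁻¹ * t))
  have sh : ∀ q : ℕ, D.ψ q = 1 → Tz.Sh q ν ν := fun q k t t' r => by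
    have : D.ψ t = D.ψ t' := by rw [r, map_mul, k, one_mul]
    simp only [ν, w, Units.val_mul, map_mul, this]
  have pc : D.ψ L.c = 1 := by
    rw [← Nat.prod_primeFactors_of_squarefree L.lz.sq, Nat.cast_prod, map_prod]
    exact prod_eq_one fun q m =>
      (fb q (Nat.prime_of_mem_primeFactors m) (Nat.dvd_of_mem_primeFactors m)).1
  obtain ⟨y, ay, ey⟩ := kill (V := L.U ⊓ Hc b.j 1) (p := pp) (t := L.t) (Nat.mul_pos two_pos
    (card_pos.2 (Nat.nonempty_primeFactors.2 L.lz.one))) lt.le lv L.lz.g0 aX fun l g i o => by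
    have := cr b.K b.j b.iq b.upm pp (n + 1) (D.f ^ 2) L.c D.f 1 (Fi b D.f) L.χ L.R (ZMod pp)
      (Sd (L.U ⊓ Hc b.j 1) (D.f * L.c)) (ld (L.U ⊓ Hc b.j 1) (D.f * L.c) l) (Tz.pg (D.f * L.c)) ν ν
      L.c.primeFactors (fun g => l (W g)) pp_prime s.pos (s.cn b) L.lz.sq (co.pow_right 2)
      (sq D.f ▸ dvd_rfl) (by rw [one_mul]; exact dvd_pow_self _ two_ne_zero) L.lz.add L.lz.ker fa
      L.tv (ZMod.natCast_self _) (ld_add g (Nat.mul_pos f0 c0))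
      (Tz.sys _ (Nat.mul_pos f0 c0)).1 (sh _ pc) (fun q m => by
        have q1 := Nat.prime_of_mem_primeFactors m
        have q2 := Nat.dvd_of_mem_primeFactors m
        exact ⟨q1, q2, sh q (fb q q1 q2).1, (fb q q1 q2).2⟩)
      (fun k m σ τ₁ τ₀ τ' x p q t r r' => by
        obtain ⟨z, z1, z2⟩ := yr_mem x_rc1 y_hg1 b.iq s.pos (s.cn b) (dvd_pow_self _ two_ne_zero)
          m x p q t D.dc.one c0 co ν r r'
        exact ⟨z, z1.mono inf_le_right, z2⟩)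
      (fun k m => by
        obtain ⟨τ, p⟩ := (y_hg1 b.K b.j b.iq _ L.c _ s.pos c0 (co.pow_right 2) (s.cn b)).1
        obtain ⟨σ, x⟩ := ex_ex k
        obtain ⟨τ₀, q⟩ := (cj0 σ _ s.pos).1 τ
        obtain ⟨τ', t⟩ := Tz.Cr.ex_mul f0 τ₀
        refine ⟨σ, τ, τ₀, τ', x, p, q, t, ?_⟩
        rw [← (Tz.lnk D.f L.c L.c₀ L.m w ν u D.dc.one c0 (ZMod.coe_unitOfCoprime _ _)
          (fun _ => rfl) τ₀ τ' t).1, ← ld_eq g (Nat.mul_pos f0 c0) ((aW k m).mono lv)]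
        simp only [W, w, map_prod, map_pow, zpow_natCast,
          fun t => h.vl t k (L.tv.mem k m) σ τ τ₀ x p q]) lt i o
    rw [← this, ← sum_fiberwise_of_maps_to (s := L.R) (g := fun g => (L.χ g).val)
      fun g _ => mem_range.2 (ZMod.val_lt _)]
    refine sum_congr rfl fun k m => ?_
    rw [h.xa, g.prod fun g m => (aW g (mem_filter.1 m).1).mono lv, mul_sum]
    refine sum_congr (filter_congr fun g _ => ?_) fun g m => by rw [(mem_filter.1 m).2]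
    exact ⟨fun r => by rw [r, ZMod.val_cast_of_lt (mem_range.1 m)],
      fun r => by rw [← r, ZMod.natCast_zmod_val]⟩
  have fx : ∀ k, Am b.Γ ((dT L.γ)^[k] (L.X a)) ∧
      ∀ g ∈ L.U, g ((dT L.γ)^[k] (L.X a)) = (dT L.γ)^[k] (L.X a) := fun k => by
    induction k with
    | zero => exact ⟨aX, fx_x h a⟩
    | succ k i =>
      rw [Function.iterate_succ_apply', dT]
      exact ⟨(i.1.act L.lz.g0).div i.1, fun g m => by
        rw [map_div₀, i.1.2 g (le m) _ L.lz.g0, i.2 g m]⟩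
  obtain ⟨z, z1, z2⟩ := dsc (U := L.U) (p := pp) inf_le_left (fun g m v k =>
    ⟨L.U.mul_mem (L.U.mul_mem (L.U.inv_mem m) k.1) m,
      (x_rc1 b.K b.j b.iq 1 one_pos).2.2.1.conj_mem' v k.2 g⟩)
    (ex_oz L) (ey ▸ (fx _).2) ay
  exact ⟨z, z1, ey.trans z2⟩

end Vale.Agent.P014Z.Tk
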