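import Vale.Agent.P014Z.Tk.Top
import Vale.Agent.P014Z.Tz.Frm
import Vale.Agent.P014Z.Tz.Par
import Vale.Agent.P014Z.Tz.Geo
import Vale.Agent.P014Z.Tz.Yd
import Vale.Agent.P014Z.Tz.Spl
import Vale.Agent.P014Z.Tz.Grp
import Vale.Agent.P014Z.Tz.Loc
import Vale.Agent.P014Z.Tz.Dis

/-! # P014Z, block TK closed -/

set_option autoImplicit false
set_option linter.all false

namespace Vale.Agent.P014Z.Tk

open Vale.Agent.P014U P004K Tz

theorem x_cr0 : CR0 :=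
  cr0 y_hg1 cj0 (par x_rc1 x_rc2) (geo Rc.iq jh x_rc1) (yd dis) spl grp loc

/-- **the trivial zeros, Kummer form** -/
theorem x_tzk [Pp] : Gl.TZK :=
  tzk x_cr0 fun _ _ _ _ L => ⟨Fr.ram x_rc2 L.lz, Fr.prm x_rc2 L.lz⟩

end Vale.Agent.P014Z.Tk
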